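import Vale.Agent.P112.Top.Main
import Vale.Agent.P112.H694.Sup
import Vale.Agent.P112.H694.Tail
import Vale.Agent.P112.H540.FD1
import Vale.Agent.P112.H213.Bk

/-!
# P112: composition. Q1 (strong form) from the density levels (F) and the gain (G)
-/

open MeasureTheory Set Filter Topology
open scoped ENNReal NNReal

set_option linter.dupNamespace false

namespace Vale.Agent.P112.TOP

open T F30 H694.BO

/-- The band theorem from (R0ν) and (G). -/
theorem band_of_FG {e : ℝ} {M : ℕ} (hM : 8 ≤ M) (h0 : ∀ κ : Ker M, StR0ν κ)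
    (hG : ∀ κ : Ker M, StG κ e) : DEC.BandBound e M :=
  bandBound_of_restr0 (a := 2) (by norm_num) fun κ =>
    restr0_of (H540.stFD1 4) (h0 κ) (H694.stTail κ hM) (H694.stSup κ) (hG κ)

/-- **Q1 from (R0ν) and (G).** One number `e > 0` and one number of moments suffice. -/
theorem stein_of_FG {e : ℝ≥0} (he0 : 0 < e) (he : (e : ℝ) ≤ 1 / 2) {M : ℕ} (hM : 8 ≤ M)
    (h0 : ∀ κ : Ker M, StR0ν κ) (hG : ∀ κ : Ker M, StG κ e) :
    ∃ C : ℝ, 0 < C ∧ ∀ v : EuclideanSpace ℝ (Fin 2) → EuclideanSpace ℝ (Fin 2),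
      (∀ x, ‖v x‖ = 1) → LipschitzWith 1 v →
      ∀ a : ℝ, 0 < a → a ≤ 1 → StrongType v a C ∧ WeakType v a C :=
  DEC.stein_of_band he0 he (band_of_FG hM h0 hG)

end Vale.Agent.P112.TOP
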