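import Vale.Agent.P112.Top.Defs

/-!
# P112, [TOP]: linearity, adjoint, splitting into density levels, Cauchy-Schwarz
-/

open MeasureTheory Set Filter Topology
open scoped ENNReal

set_option linter.dupNamespace false

namespace Vale.Agent.P112.TOP

open T F30 H694.BO

variable {M : ℕ}

theorem integrable_kg (κ : Ker M) {u : ℝ × ℝ → ℝ} (hu : Field u) (j : ℕ) (ζ : ℝ × ℝ)
    {g : ℝ × ℝ → ℝ} (hg : Nice g) : Integrable fun z => κ.k j (u z) z ζ * g z := by
  obtain ⟨D, hD, hk⟩ := κ.k_bdd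
  have hm : Measurable fun z => κ.k j (u z) z ζ :=
    (κ.k_measurable hu.meas j).comp (measurable_id.prodMk measurable_const)
  exact hg.integrable.bdd_mul hm.aestronglyMeasurable
    (Eventually.of_forall fun z => by simpa using hk j (u z) z ζ)

theorem S_add (κ : Ker M) {u : ℝ × ℝ → ℝ} (hu : Field u) (j : ℕ) {g g' : ℝ × ℝ → ℝ}
    (hg : Nice g) (hg' : Nice g') (ζ : ℝ × ℝ) :
    κ.S u j (fun z => g z + g' z) ζ = κ.S u j g ζ + κ.S u j g' ζ := by
  unfold Ker.S
  rw [← integral_add (integrable_kg κ hu j ζ hg) (integrable_kg κ hu j ζ hg')]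
  exact integral_congr_ae (Eventually.of_forall fun z => mul_add _ _ _)

theorem T_bdd (κ : Ker M) (u : ℝ × ℝ → ℝ) (j : ℕ) {f : ℝ × ℝ → ℝ} (hf : Nice f) :
    ∃ C, ∀ z, |κ.T u j f z| ≤ C := by
  obtain ⟨D, hD, hk⟩ := κ.k_bdd
  refine ⟨D * 2 ^ j * ∫ z, |f z|, fun z => ?_⟩
  unfold Ker.T
  calc |∫ ζ, κ.k j (u z) z ζ * f ζ| ≤ ∫ z, D * 2 ^ j * |f z| := by
        rw [← Real.norm_eq_abs]
        refine norm_integral_le_of_norm_le (hf.abs.integrable.const_mul _) ?_
        refine Eventually.of_forall fun ζ => ?_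
        rw [Real.norm_eq_abs, abs_mul]
        gcongr
        exact hk _ _ _ _
    _ = D * 2 ^ j * ∫ z, |f z| := integral_const_mul _ _

theorem T_mul_integrable (κ : Ker M) {u : ℝ × ℝ → ℝ} (hu : Field u) (j : ℕ) {f g : ℝ × ℝ → ℝ}
    (hf : Nice f) (hg : Nice g) : Integrable fun z => κ.T u j f z * g z := by
  obtain ⟨C, hC⟩ := T_bdd κ u j hf
  exact hg.integrable.bdd_mul (T_meas κ hu.meas j hf).aestronglyMeasurable
    (Eventually.of_forall fun z => by simpa using hC z)

/-- The adjoint of the sum of all scales. -/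
theorem Tn_adj (κ : Ker M) {u : ℝ × ℝ → ℝ} (hu : Field u) (n : ℕ) {f g : ℝ × ℝ → ℝ}
    (hf : Nice f) (hg : Nice g) :
    ∫ z, Tn κ u n f z * g z = ∫ ζ, f ζ * ∑ j ∈ Finset.range n, κ.S u j g ζ := by
  have h1 : ∫ z, Tn κ u n f z * g z = ∑ j ∈ Finset.range n, ∫ z, κ.T u j f z * g z := by
    rw [← integral_finsetSum _ fun j _ => T_mul_integrable κ hu j hf hg]
    refine integral_congr_ae (Eventually.of_forall fun z => ?_)
    simp only [Tn, Finset.sum_mul]
  have h2 : ∫ ζ, f ζ * ∑ j ∈ Finset.range n, κ.S u j g ζ =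
      ∑ j ∈ Finset.range n, ∫ ζ, κ.S u j g ζ * f ζ := by
    rw [← integral_finsetSum _ fun j _ => ((κ.S_nice hu j hg).mul hf).integrable]
    refine integral_congr_ae (Eventually.of_forall fun ζ => ?_)
    simp only [Finset.mul_sum]
    exact Finset.sum_congr rfl fun j _ => mul_comm _ _
  rw [h1, h2]
  refine Finset.sum_congr rfl fun j _ => ?_
  rw [κ.integral_S_mul' hu j hg hf]
  exact integral_congr_ae (Eventually.of_forall fun z => mul_comm _ _)

theorem half_le : (1 / 2 : ℝ≥0∞) ≤ 1 := by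
  rw [one_div]
  exact ENNReal.inv_le_one.2 (by norm_num)

/-- Splitting of `g` into density levels, one scale. -/
theorem g_split {u g : ℝ × ℝ → ℝ} {p n j : ℕ} (hj : j < n)
    (hd : ∀ z ∈ {z | g z ≠ 0}, dens u {z | g z ≠ 0} p z j ≤ 1) (N : ℕ) (z : ℝ × ℝ) :
    g z = ∑ ν ∈ Finset.range N, (Pd u {z | g z ≠ 0} p n ν j).indicator g z +
      (Plow u {z | g z ≠ 0} p n N j).indicator g z := by
  induction N with
  | zero =>
    simp only [Finset.range_zero, Finset.sum_empty, zero_add]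
    by_cases h : g z = 0
    · rw [h]
      symm
      by_cases h' : z ∈ Plow u {z | g z ≠ 0} p n 0 j
      · rw [indicator_of_mem h', h]
      · rw [indicator_of_notMem h']
    · rw [indicator_of_mem]
      exact ⟨h, hj, by simpa using hd z h⟩
  | succ N ih =>
    rw [Finset.sum_range_succ, add_assoc]
    have : (Plow u {z | g z ≠ 0} p n N j).indicator g z =
        (Pd u {z | g z ≠ 0} p n N j).indicator g z +
        (Plow u {z | g z ≠ 0} p n (N + 1) j).indicator g z := by
      by_cases hP : z ∈ Plow u {z | g z ≠ 0} p n N j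
      · rw [indicator_of_mem hP]
        obtain ⟨a, b, c⟩ := hP
        by_cases hl : dens u {z | g z ≠ 0} p z j ≤ (1 / 2) ^ (N + 1)
        · have h1 : z ∉ Pd u {z | g z ≠ 0} p n N j := fun h => absurd hl (not_le.2 h.2.2.1)
          have h2 : z ∈ Plow u {z | g z ≠ 0} p n (N + 1) j := ⟨a, b, hl⟩
          rw [indicator_of_notMem h1, indicator_of_mem h2, zero_add]
        · have h1 : z ∈ Pd u {z | g z ≠ 0} p n N j := ⟨a, b, not_le.1 hl, c⟩
          have h2 : z ∉ Plow u {z | g z ≠ 0} p n (N + 1) j := fun h => hl h.2.2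
          rw [indicator_of_mem h1, indicator_of_notMem h2, add_zero]
      · rw [indicator_of_notMem hP]
        have h1 : z ∉ Pd u {z | g z ≠ 0} p n N j := fun h => hP ⟨h.1, h.2.1, h.2.2.2⟩
        have h2 : z ∉ Plow u {z | g z ≠ 0} p n (N + 1) j := fun h =>
          hP ⟨h.1, h.2.1, h.2.2.trans (pow_le_pow_right_of_le_one' half_le (Nat.le_succ N))⟩
        rw [indicator_of_notMem h1, indicator_of_notMem h2, add_zero]
    rw [← this]
    exact ih

/-- Splitting of the sum of all scales. -/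
theorem FS_split (κ : Ker M) {u : ℝ × ℝ → ℝ} (hu : Field u) {g : ℝ × ℝ → ℝ} (hg : Nice g)
    {p n : ℕ} (hd : ∀ z ∈ {z | g z ≠ 0}, ∀ j < n, dens u {z | g z ≠ 0} p z j ≤ 1)
    (hP : ∀ ν j, MeasurableSet (Pd u {z | g z ≠ 0} p n ν j))
    (hL : ∀ ν j, MeasurableSet (Plow u {z | g z ≠ 0} p n ν j)) (N : ℕ) (ζ : ℝ × ℝ) :
    ∑ j ∈ Finset.range n, κ.S u j g ζ =
      ∑ ν ∈ Finset.range N, κ.FS u g (Pd u {z | g z ≠ 0} p n ν) n ζ +
        κ.FS u g (Plow u {z | g z ≠ 0} p n N) n ζ := by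
  have hone : ∀ j ∈ Finset.range n, ∀ N, κ.S u j g ζ =
      ∑ ν ∈ Finset.range N, κ.S u j ((Pd u {z | g z ≠ 0} p n ν j).indicator g) ζ +
        κ.S u j ((Plow u {z | g z ≠ 0} p n N j).indicator g) ζ := by
    intro j hj N
    rw [Finset.mem_range] at hj
    have hs : ∀ N : ℕ, κ.S u j (fun z => ∑ ν ∈ Finset.range N,
        (Pd u {z | g z ≠ 0} p n ν j).indicator g z) ζ =
        ∑ ν ∈ Finset.range N, κ.S u j ((Pd u {z | g z ≠ 0} p n ν j).indicator g) ζ := by
      intro N
      induction N with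
      | zero =>
        simp [Ker.S]
      | succ N ih =>
        simp only [Finset.sum_range_succ]
        rw [S_add κ hu j (Nice.sum _ fun ν _ => hg.indicator (hP ν j)) (hg.indicator (hP N j)), ih]
    rw [← hs N, ← S_add κ hu j (Nice.sum _ fun ν _ => hg.indicator (hP ν j))
      (hg.indicator (hL N j))]
    congr 1
    funext z
    exact g_split hj (fun z hz => hd z hz j hj) N z
  calc ∑ j ∈ Finset.range n, κ.S u j g ζ
      = ∑ j ∈ Finset.range n, (∑ ν ∈ Finset.range N,
          κ.S u j ((Pd u {z | g z ≠ 0} p n ν j).indicator g) ζ +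
        κ.S u j ((Plow u {z | g z ≠ 0} p n N j).indicator g) ζ) :=
        Finset.sum_congr rfl fun j hj => hone j hj N
    _ = _ := by
        rw [Finset.sum_add_distrib, Finset.sum_comm]
        rfl

theorem memLp_two {f : ℝ × ℝ → ℝ} (hf : Nice f) : MemLp f 2 volume := by
  refine (memLp_two_iff_integrable_sq hf.meas.aestronglyMeasurable).2 ?_
  exact hf.sq.integrable

/-- Cauchy–Schwarz on a set that carries the product. -/
theorem abs_pair_le {f G : ℝ × ℝ → ℝ} (hf : Nice f) (hG : Nice G) (hf1 : ∀ z, |f z| ≤ 1)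
    {A : Set (ℝ × ℝ)} (hA : MeasurableSet A) (hfin : volume A ≠ ∞)
    (h : ∀ z, z ∉ A → f z * G z = 0) :
    |∫ ζ, f ζ * G ζ| ≤ √((volume A).toReal) * √(∫ ζ, G ζ ^ 2) := by
  have h1 : ∫ ζ, f ζ * G ζ = ∫ ζ, A.indicator f ζ * G ζ := by
    refine integral_congr_ae (Eventually.of_forall fun z => ?_)
    by_cases hz : z ∈ A
    · simp [hz]
    · simp only [indicator_of_notMem hz, zero_mul]
      exact h z hz
  have hfA : Nice (A.indicator f) := hf.indicator hA
  rw [h1]
  refine (H694.IsOp.cauchy (memLp_two hfA) (memLp_two hG)).trans ?_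
  gcongr
  have h2 : ∫ ζ, A.indicator f ζ ^ 2 ≤ ∫ ζ, A.indicator (fun _ => (1 : ℝ)) ζ := by
    refine integral_mono hfA.sq.integrable ?_ fun z => ?_
    · exact (integrable_indicator_iff hA).2 (integrableOn_const hfin)
    · by_cases hz : z ∈ A
      · simp only [indicator_of_mem hz]
        have := hf1 z
        rw [← sq_abs]
        exact pow_le_one₀ (abs_nonneg _) this
      · simp [hz]
  rw [integral_indicator hA] at h2
  simpa [Measure.real] using h2

end Vale.Agent.P112.TOP
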