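import Vale.Agent.P112.F30.Defs
import Vale.Agent.P112.H694.BandOut

/-!
# P112, chapter [TOP]: the final summation over the density levels. Exact statements

Inputs: (R0ν) and the dense tops of chapter (F), the tail of very low density, and ONE statement
for the whole of chapter (G).
-/

open MeasureTheory Set
open scoped ENNReal

set_option linter.dupNamespace false

namespace Vale.Agent.P112.TOP

open T F30

variable {M : ℕ}

/-- The pairs of density at most `2 ^ (-ν)`, single scales, crude in the number of scales. -/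
def StTail (κ : Ker M) : Prop := ∃ C : ℝ, 0 < C ∧ ∀ (u : ℝ × ℝ → ℝ), Field u →
  ∀ (n ν : ℕ) (g : ℝ × ℝ → ℝ), Nice g → (∀ z, |g z| ≤ 1) →
    ∫ ζ, (κ.FS u g (Plow u {z | g z ≠ 0} 4 n ν) n ζ) ^ 2 ≤
      C * n ^ 2 * (1 / 2) ^ ν * (volume {z | g z ≠ 0}).toReal

/-- The support of one density level (used for large `f`). -/
def StSup (κ : Ker M) : Prop := ∃ (C : ℝ) (a : ℕ), 0 < C ∧ ∀ (u : ℝ × ℝ → ℝ), Field u →
  ∀ (n ν : ℕ) (g : ℝ × ℝ → ℝ), Nice g →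
    volume {ζ | κ.FS u g (Pd u {z | g z ≠ 0} 4 n ν) n ζ ≠ 0} ≤
      ENNReal.ofReal (C * 2 ^ (a * ν)) * volume {z | g z ≠ 0}

/-- The gain: everything that chapter (G) has to deliver. One density level `ν ≤ b log L`,
`L = log (|E| / |F|)` large, gain `L ^ (-B)` for every `B`. -/
def StG (κ : Ker M) (e : ℝ) : Prop := ∀ b B : ℕ, ∃ C : ℝ, 1 ≤ C ∧
  ∀ (u : ℝ × ℝ → ℝ), Field u → (∀ x y y', |u (x, y) - u (x, y')| ≤ e * |y - y'|) →
  ∀ (n ν : ℕ) (f g : ℝ × ℝ → ℝ), Nice f → Nice g → (∀ z, |f z| ≤ 1) → (∀ z, |g z| ≤ 1) →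
    (∀ z, f z ≠ 0 → 1 / 2 ≤ |f z|) → (∀ z, g z ≠ 0 → 1 / 2 ≤ |g z|) →
    (∀ z, g z ≠ 0 → z.1 ∈ Ico (0 : ℝ) 1) →
    0 < volume {z | f z ≠ 0} → 0 < volume {z | g z ≠ 0} →
    ∀ L : ℝ, L = Real.log ((volume {z | g z ≠ 0}).toReal / (volume {z | f z ≠ 0}).toReal) →
    C ≤ L → (ν : ℝ) ≤ b * Real.log L →
      |∫ ζ, f ζ * κ.FS u g (Pd u {z | g z ≠ 0} 4 n ν) n ζ| * L ^ B ≤
        C * √((volume {z | f z ≠ 0}).toReal) * √((volume {z | g z ≠ 0}).toReal)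

end Vale.Agent.P112.TOP
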