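import Mathlib

/-!
# P112, [TOP]: elementary numerical lemmas
-/

namespace Vale.Agent.P112.TOP

open Filter Topology

/-- Positive side: a geometric bound and a gain in the range `ν ≤ b log L` give `L⁻²`. -/
theorem gain_pos {σ : ℝ} (h0 : 0 < σ) (h1 : σ < 1) : ∃ b B : ℕ, ∀ C0 C A L t : ℝ, ∀ ν : ℕ,
    0 ≤ C0 → 0 ≤ C → 0 ≤ A → 1 ≤ L → t ≤ C0 * σ ^ (2 * ν) * A →
    ((ν : ℝ) ≤ b * Real.log L → t * L ^ B ≤ C * A) →
    t * L ^ 2 ≤ (C0 + C) * σ ^ ν * A := by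
  have hs : 0 < -Real.log σ := by
    have := Real.log_neg h0 h1
    linarith
  set s := -Real.log σ with hsdef
  obtain ⟨b, hb⟩ := exists_nat_ge (2 / s)
  have hbs : 2 ≤ b * s := by
    rw [div_le_iff₀ hs] at hb
    exact hb
  obtain ⟨B, hB⟩ := exists_nat_ge (2 + b * s)
  refine ⟨b, B, fun C0 C A L t ν hC0 hC hA hL ht hG => ?_⟩
  have hLpos : 0 < L := by linarith
  have hlogL : 0 ≤ Real.log L := Real.log_nonneg hL
  have hσν : σ ^ ν = Real.exp (-(s * ν)) := by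
    rw [← Real.exp_log (pow_pos h0 ν), Real.log_pow]
    congr 1
    rw [hsdef]
    ring
  have hLn : ∀ k : ℕ, L ^ k = Real.exp (k * Real.log L) := fun k => by
    rw [← Real.exp_log (pow_pos hLpos k), Real.log_pow]
  by_cases hν : (ν : ℝ) ≤ b * Real.log L
  · have h2 := hG hν
    have h3 : 1 ≤ σ ^ ν * (L ^ B / L ^ 2) := by
      rw [hσν, hLn B, hLn 2, ← Real.exp_sub, ← Real.exp_add]
      apply Real.one_le_exp
      have h4 : s * ν ≤ s * (b * Real.log L) := by gcongr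
      have h5 : (2 + b * s) * Real.log L ≤ B * Real.log L := by gcongr
      push_cast
      nlinarith
    have hL2 : (0 : ℝ) < L ^ 2 := by positivity
    have hLB : (0 : ℝ) < L ^ B := by positivity
    have h6 : t * L ^ 2 ≤ C * A * (L ^ 2 / L ^ B) := by
      have : t ≤ C * A / L ^ B := by rw [le_div_iff₀ hLB]; exact h2
      calc t * L ^ 2 ≤ C * A / L ^ B * L ^ 2 := by gcongr
        _ = C * A * (L ^ 2 / L ^ B) := by ring
    have h7 : L ^ 2 / L ^ B ≤ σ ^ ν := by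
      rw [div_le_iff₀ hLB]
      have := mul_le_mul_of_nonneg_right h3 hL2.le
      rw [one_mul] at this
      calc L ^ 2 ≤ σ ^ ν * (L ^ B / L ^ 2) * L ^ 2 := this
        _ = σ ^ ν * L ^ B := by field_simp
    calc t * L ^ 2 ≤ C * A * (L ^ 2 / L ^ B) := h6
      _ ≤ C * A * σ ^ ν := by gcongr
      _ ≤ (C0 + C) * σ ^ ν * A := by
          have : 0 ≤ C0 * σ ^ ν * A := by positivity
          nlinarith
  · rw [not_le] at hν
    have h3 : σ ^ ν * L ^ 2 ≤ 1 := by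
      rw [hσν, hLn 2, ← Real.exp_add]
      apply Real.exp_le_one_iff.2
      have h4 : s * (b * Real.log L) ≤ s * ν := by gcongr
      have h5 : 2 * Real.log L ≤ (b * s) * Real.log L := by gcongr
      push_cast
      nlinarith
    calc t * L ^ 2 ≤ C0 * σ ^ (2 * ν) * A * L ^ 2 := by gcongr
      _ = C0 * σ ^ ν * A * (σ ^ ν * L ^ 2) := by rw [two_mul, pow_add]; ring
      _ ≤ C0 * σ ^ ν * A * 1 := by gcongr
      _ ≤ (C0 + C) * σ ^ ν * A := by
          have : 0 ≤ C * σ ^ ν * A := by positivity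
          nlinarith

/-- Negative side: interpolation between decay in `ν` and decay in `x`. -/
theorem gain_neg {ρ : ℝ} (h0 : 0 < ρ) (h1 : ρ < 1) (T : ℝ) (hT : 1 ≤ T) :
    ∃ θ r : ℝ, 0 < θ ∧ 0 < r ∧ r < 1 ∧ ∀ C0 A x t : ℝ, ∀ ν : ℕ, 0 ≤ C0 → 0 ≤ A → 0 ≤ x →
      t ≤ C0 * ρ ^ ν * A → t ≤ C0 * T ^ ν * Real.exp (-x) * A →
      t ≤ C0 * r ^ ν * Real.exp (-(θ * x)) * A := by
  have hT0 : 0 < T := by linarith
  have hc : Continuous fun θ : ℝ => ρ ^ (1 - θ) * T ^ θ := by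
    refine Continuous.mul ?_ ?_
    · exact (continuous_const.rpow (continuous_const.sub continuous_id) fun _ => Or.inl h0.ne')
    · exact (continuous_const.rpow continuous_id fun _ => Or.inl hT0.ne')
  have hlim : Tendsto (fun θ : ℝ => ρ ^ (1 - θ) * T ^ θ) (𝓝 0) (𝓝 ρ) := by
    have := hc.tendsto 0
    simpa using this
  have hev : ∀ᶠ θ in 𝓝 (0 : ℝ), ρ ^ (1 - θ) * T ^ θ < 1 := hlim.eventually_lt_const h1
  obtain ⟨δ, hδ, hδ'⟩ := Metric.eventually_nhds_iff.1 hev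
  set θ := min (δ / 2) (1 / 2) with hθ
  have hθ0 : 0 < θ := lt_min (by linarith) (by norm_num)
  have hθ1 : θ ≤ 1 / 2 := min_le_right _ _
  have hθδ : dist θ 0 < δ := by
    rw [Real.dist_eq, sub_zero, abs_of_pos hθ0]
    have : θ ≤ δ / 2 := min_le_left _ _
    linarith
  refine ⟨θ, ρ ^ (1 - θ) * T ^ θ, hθ0, by positivity, hδ' hθδ, ?_⟩
  intro C0 A x t ν hC0 hA hx ht1 ht2
  rcases le_or_gt t 0 with ht | ht
  · refine ht.trans ?_
    positivity
  have e1 : t = t ^ (1 - θ) * t ^ θ := by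
    rw [← Real.rpow_add ht]
    simp
  have hX : 0 ≤ C0 * ρ ^ ν * A := by positivity
  have hY : 0 ≤ C0 * T ^ ν * Real.exp (-x) * A := by positivity
  have e2 : t ^ (1 - θ) ≤ (C0 * A) ^ (1 - θ) * (ρ ^ (1 - θ)) ^ ν := by
    calc t ^ (1 - θ) ≤ (C0 * ρ ^ ν * A) ^ (1 - θ) :=
          Real.rpow_le_rpow ht.le ht1 (by linarith)
      _ = (C0 * A * ρ ^ ν) ^ (1 - θ) := by rw [mul_right_comm]
      _ = (C0 * A) ^ (1 - θ) * (ρ ^ ν) ^ (1 - θ) := Real.mul_rpow (by positivity) (by positivity)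
      _ = (C0 * A) ^ (1 - θ) * (ρ ^ (1 - θ)) ^ ν := by
          rw [← Real.rpow_natCast ρ ν, ← Real.rpow_mul h0.le, mul_comm (ν : ℝ),
            Real.rpow_mul h0.le, Real.rpow_natCast]
  have e3 : t ^ θ ≤ (C0 * A) ^ θ * ((T ^ θ) ^ ν * Real.exp (-(θ * x))) := by
    calc t ^ θ ≤ (C0 * T ^ ν * Real.exp (-x) * A) ^ θ := Real.rpow_le_rpow ht.le ht2 hθ0.le
      _ = (C0 * A * (T ^ ν * Real.exp (-x))) ^ θ := by ring_nf
      _ = (C0 * A) ^ θ * (T ^ ν * Real.exp (-x)) ^ θ := Real.mul_rpow (by positivity) (by positivity)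
      _ = (C0 * A) ^ θ * ((T ^ ν) ^ θ * (Real.exp (-x)) ^ θ) := by
          rw [Real.mul_rpow (x := T ^ ν) (y := Real.exp (-x)) (by positivity) (by positivity)]
      _ = (C0 * A) ^ θ * ((T ^ θ) ^ ν * Real.exp (-(θ * x))) := by
          rw [← Real.rpow_natCast T ν, ← Real.rpow_mul hT0.le, mul_comm (ν : ℝ),
            Real.rpow_mul hT0.le, Real.rpow_natCast, ← Real.exp_mul]
          congr 3
          ring
  have e4 : C0 * A = (C0 * A) ^ (1 - θ) * (C0 * A) ^ θ := by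
    have hCA : 0 < C0 * A := by
      rcases (mul_nonneg hC0 hA).lt_or_eq with h | h
      · exact h
      · exfalso
        have : C0 * ρ ^ ν * A = 0 := by rw [mul_right_comm, ← h, zero_mul]
        linarith
    rw [← Real.rpow_add hCA]
    simp
  calc t = t ^ (1 - θ) * t ^ θ := e1
    _ ≤ (C0 * A) ^ (1 - θ) * (ρ ^ (1 - θ)) ^ ν *
        ((C0 * A) ^ θ * ((T ^ θ) ^ ν * Real.exp (-(θ * x)))) := by gcongr
    _ = ((C0 * A) ^ (1 - θ) * (C0 * A) ^ θ) * (ρ ^ (1 - θ) * T ^ θ) ^ ν * Real.exp (-(θ * x)) := by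
        rw [mul_pow]; ring
    _ = C0 * (ρ ^ (1 - θ) * T ^ θ) ^ ν * Real.exp (-(θ * x)) * A := by
        rw [← e4]; ring

/-- Exponential decay beats the square. -/
theorem exp_le_sq (θ : ℝ) (hθ : 0 < θ) : ∃ C : ℝ, 0 < C ∧ ∀ x : ℝ, 0 ≤ x →
    Real.exp (-(θ * x)) * (1 + x) ^ 2 ≤ C := by
  refine ⟨Real.exp θ * (2 / θ ^ 2), by positivity, fun x hx => ?_⟩
  have h1 : 0 ≤ θ * (1 + x) := by positivity
  have h2 : (θ * (1 + x)) ^ 2 / 2 ≤ Real.exp (θ * (1 + x)) := by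
    have := Real.quadratic_le_exp_of_nonneg h1
    linarith
  have h3 : (1 + x) ^ 2 ≤ 2 / θ ^ 2 * Real.exp (θ * (1 + x)) := by
    rw [div_mul_eq_mul_div, le_div_iff₀ (by positivity)]
    nlinarith
  calc Real.exp (-(θ * x)) * (1 + x) ^ 2
      ≤ Real.exp (-(θ * x)) * (2 / θ ^ 2 * Real.exp (θ * (1 + x))) := by gcongr
    _ = (Real.exp (-(θ * x)) * Real.exp (θ * (1 + x))) * (2 / θ ^ 2) := by ring
    _ = Real.exp θ * (2 / θ ^ 2) := by
        rw [← Real.exp_add]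
        congr 2
        ring

/-- Partial sums of a geometric series. -/
theorem geom_le {r : ℝ} (h0 : 0 ≤ r) (h1 : r < 1) (N : ℕ) :
    ∑ ν ∈ Finset.range N, r ^ ν ≤ 1 / (1 - r) := by
  have := (summable_geometric_of_lt_one h0 h1).sum_le_tsum (Finset.range N)
    fun i _ => pow_nonneg h0 i
  rw [tsum_geometric_of_lt_one h0 h1] at this
  rw [one_div]
  exact this

end Vale.Agent.P112.TOP
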