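import Vale.Agent.P112.Top.Lin
import Vale.Agent.P112.Top.Num

/-!
# P112, [TOP]: the restricted bound with logarithmic gain from one density level
-/

open MeasureTheory Set Filter Topology
open scoped ENNReal

set_option linter.dupNamespace false

namespace Vale.Agent.P112.TOP

open T F30 H694.BO

variable {M : ℕ}

theorem sqrt_pow' {x : ℝ} (hx : 0 ≤ x) (ν : ℕ) : √(x ^ ν) = √x ^ ν := by
  rw [← Real.sqrt_sq (pow_nonneg (Real.sqrt_nonneg x) ν), ← pow_mul, mul_comm, pow_mul,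
    Real.sq_sqrt hx]

theorem meas_ne (g : ℝ × ℝ → ℝ) (hg : Nice g) : MeasurableSet {z | g z ≠ 0} :=
  (measurableSet_singleton (0 : ℝ)).compl.preimage hg.meas

theorem bdd_ne {g : ℝ × ℝ → ℝ} (hg : Nice g) : ∃ r : ℝ, ∀ z ∈ {z | g z ≠ 0}, |z.1| ≤ r ∧ |z.2| ≤ r := by
  obtain ⟨r, hr⟩ := hg.supp
  refine ⟨r, fun z hz => ⟨?_, ?_⟩⟩
  · by_contra h
    exact hz (hr z (Or.inl (not_le.1 h).le))
  · by_contra h
    exact hz (hr z (Or.inr (not_le.1 h).le))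

theorem vol_ne_lt_top {g : ℝ × ℝ → ℝ} (hg : Nice g) : volume {z | g z ≠ 0} < ∞ := by
  obtain ⟨r, hr⟩ := bdd_ne hg
  have hsub : {z | g z ≠ 0} ⊆ Icc (-r) r ×ˢ Icc (-r) r := fun z hz =>
    ⟨abs_le.1 (hr z hz).1, abs_le.1 (hr z hz).2⟩
  exact (measure_mono hsub).trans_lt (isCompact_Icc.prod isCompact_Icc).measure_lt_top

section

variable {κ : Ker M} {u f g : ℝ × ℝ → ℝ} {n : ℕ}

/-- From geometric bounds on the levels to the sum of all scales. -/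
theorem total_le (hD : StFD1 4) (hT : StTail κ) (hu : Field u) (hf : Nice f) (hg : Nice g)
    (hf1 : ∀ z, |f z| ≤ 1) (hg1 : ∀ z, |g z| ≤ 1) {K r : ℝ} (hK : 0 ≤ K) (hr0 : 0 ≤ r) (hr1 : r < 1)
    (ht : ∀ ν, |∫ ζ, f ζ * κ.FS u g (Pd u {z | g z ≠ 0} 4 n ν) n ζ| ≤ K * r ^ ν) :
    |∫ z, Tn κ u n f z * g z| ≤ K / (1 - r) := by
  obtain ⟨C1, hC1, hT⟩ := hT
  obtain ⟨CD, -, hD⟩ := hD
  have hD := fun ν => hD u hu {z | g z ≠ 0} (meas_ne g hg) (bdd_ne hg) n ν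
  have hPm : ∀ ν j, MeasurableSet (Pd u {z | g z ≠ 0} 4 n ν j) := fun ν j => (hD ν).1.meas j
  have hLm : ∀ ν j, MeasurableSet (Plow u {z | g z ≠ 0} 4 n ν j) := fun ν j => (hD ν).2.2.1 j
  have hd : ∀ z ∈ {z | g z ≠ 0}, ∀ j < n, dens u {z | g z ≠ 0} 4 z j ≤ 1 := (hD 0).2.1
  rw [Tn_adj κ hu n hf hg]
  have hN : ∀ N : ℕ, |∫ ζ, f ζ * ∑ j ∈ Finset.range n, κ.S u j g ζ| ≤
      K / (1 - r) + √((volume {z | f z ≠ 0}).toReal) *
        √(C1 * n ^ 2 * (1 / 2) ^ N * (volume {z | g z ≠ 0}).toReal) := by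
    intro N
    have e1 : ∫ ζ, f ζ * ∑ j ∈ Finset.range n, κ.S u j g ζ =
        ∑ ν ∈ Finset.range N, (∫ ζ, f ζ * κ.FS u g (Pd u {z | g z ≠ 0} 4 n ν) n ζ) +
          ∫ ζ, f ζ * κ.FS u g (Plow u {z | g z ≠ 0} 4 n N) n ζ := by
      rw [← integral_finsetSum _ fun ν _ => (hf.mul (κ.FS_nice hu hg (hPm ν) n)).integrable,
        ← integral_add (integrable_finsetSum _ fun ν _ =>
          (hf.mul (κ.FS_nice hu hg (hPm ν) n)).integrable)
          (hf.mul (κ.FS_nice hu hg (hLm N) n)).integrable]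
      refine integral_congr_ae (Eventually.of_forall fun ζ => ?_)
      simp only
      rw [FS_split κ hu hg hd hPm hLm N ζ, mul_add, Finset.mul_sum]
    rw [e1]
    refine (abs_add_le _ _).trans (add_le_add ?_ ?_)
    · refine (Finset.abs_sum_le_sum_abs _ _).trans ?_
      calc ∑ ν ∈ Finset.range N, |∫ ζ, f ζ * κ.FS u g (Pd u {z | g z ≠ 0} 4 n ν) n ζ|
          ≤ ∑ ν ∈ Finset.range N, K * r ^ ν := Finset.sum_le_sum fun ν _ => ht ν
        _ = K * ∑ ν ∈ Finset.range N, r ^ ν := by rw [Finset.mul_sum]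
        _ ≤ K * (1 / (1 - r)) := by gcongr; exact geom_le hr0 hr1 N
        _ = K / (1 - r) := by ring
    · refine (abs_pair_le hf (κ.FS_nice hu hg (hLm N) n) hf1 (meas_ne f hf)
        (vol_ne_lt_top hf).ne fun z hz => ?_).trans ?_
      · have : f z = 0 := by simpa using hz
        rw [this, zero_mul]
      · gcongr
        exact hT u hu n N g hg hg1
  have hlim : Tendsto (fun N : ℕ => K / (1 - r) + √((volume {z | f z ≠ 0}).toReal) *
        √(C1 * n ^ 2 * (1 / 2) ^ N * (volume {z | g z ≠ 0}).toReal)) atTop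
      (𝓝 (K / (1 - r) + √((volume {z | f z ≠ 0}).toReal) *
        √(C1 * n ^ 2 * 0 * (volume {z | g z ≠ 0}).toReal))) := by
    refine tendsto_const_nhds.add (tendsto_const_nhds.mul ?_)
    refine (Real.continuous_sqrt.tendsto _).comp ?_
    exact (tendsto_const_nhds.mul (tendsto_pow_atTop_nhds_zero_of_lt_one (by norm_num)
      (by norm_num))).mul tendsto_const_nhds
  have := ge_of_tendsto' hlim hN
  simpa using this

/-- The trivial bound of one level. -/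
theorem level_le {C0 : ℝ} (hD : StFD1 4)
    (h0 : ∀ (n ν : ℕ) (g : ℝ × ℝ → ℝ), Nice g → (∀ z, |g z| ≤ 1) →
      ∫ ζ, (κ.FS u g (Pd u {z | g z ≠ 0} 4 n ν) n ζ) ^ 2 ≤
        C0 * (9 / 10) ^ ν * (volume {z | g z ≠ 0}).toReal)
    (hu : Field u) (hf : Nice f) (hg : Nice g)
    (hf1 : ∀ z, |f z| ≤ 1) (hg1 : ∀ z, |g z| ≤ 1) (ν : ℕ) :
    |∫ ζ, f ζ * κ.FS u g (Pd u {z | g z ≠ 0} 4 n ν) n ζ| ≤
      √C0 * √(9 / 10) ^ ν * (√((volume {z | f z ≠ 0}).toReal) *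
        √((volume {z | g z ≠ 0}).toReal)) := by
  obtain ⟨CD, -, hD⟩ := hD
  have hPm : ∀ j, MeasurableSet (Pd u {z | g z ≠ 0} 4 n ν j) :=
    (hD u hu {z | g z ≠ 0} (meas_ne g hg) (bdd_ne hg) n ν).1.meas
  refine (abs_pair_le hf (κ.FS_nice hu hg hPm n) hf1 (meas_ne f hf)
    (vol_ne_lt_top hf).ne fun z hz => ?_).trans ?_
  · have : f z = 0 := by simpa using hz
    rw [this, zero_mul]
  · calc √((volume {z | f z ≠ 0}).toReal) *
        √(∫ ζ, κ.FS u g (Pd u {z | g z ≠ 0} 4 n ν) n ζ ^ 2)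
        ≤ √((volume {z | f z ≠ 0}).toReal) *
          √(C0 * (9 / 10) ^ ν * (volume {z | g z ≠ 0}).toReal) := by
          gcongr
          exact h0 n ν g hg hg1
      _ = _ := by
          rw [Real.sqrt_mul' _ ENNReal.toReal_nonneg, Real.sqrt_mul' _ (by positivity),
            sqrt_pow' (by norm_num)]
          ring

/-- The bound of one level by the size of the support of the level. -/
theorem level_sup_le {C0 C2 : ℝ} {a : ℕ} (hC0 : 0 ≤ C0) (hC2 : 0 ≤ C2) (hD : StFD1 4)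
    (h0 : ∀ (n ν : ℕ) (g : ℝ × ℝ → ℝ), Nice g → (∀ z, |g z| ≤ 1) →
      ∫ ζ, (κ.FS u g (Pd u {z | g z ≠ 0} 4 n ν) n ζ) ^ 2 ≤
        C0 * (9 / 10) ^ ν * (volume {z | g z ≠ 0}).toReal)
    (hS : ∀ (n ν : ℕ) (g : ℝ × ℝ → ℝ), Nice g →
      volume {ζ | κ.FS u g (Pd u {z | g z ≠ 0} 4 n ν) n ζ ≠ 0} ≤
        ENNReal.ofReal (C2 * 2 ^ (a * ν)) * volume {z | g z ≠ 0})
    (hu : Field u) (hf : Nice f) (hg : Nice g)
    (hf1 : ∀ z, |f z| ≤ 1) (hg1 : ∀ z, |g z| ≤ 1) (ν : ℕ) :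
    |∫ ζ, f ζ * κ.FS u g (Pd u {z | g z ≠ 0} 4 n ν) n ζ| ≤
      √C0 * √C2 * (2 ^ a) ^ ν * (volume {z | g z ≠ 0}).toReal := by
  obtain ⟨CD, -, hD⟩ := hD
  have hPm : ∀ j, MeasurableSet (Pd u {z | g z ≠ 0} 4 n ν j) :=
    (hD u hu {z | g z ≠ 0} (meas_ne g hg) (bdd_ne hg) n ν).1.meas
  have hN := κ.FS_nice hu hg hPm n
  have hfin := vol_ne_lt_top hN
  refine (abs_pair_le hf hN hf1 (meas_ne _ hN) hfin.ne fun z hz => ?_).trans ?_
  · have : κ.FS u g (Pd u {z | g z ≠ 0} 4 n ν) n z = 0 := by simpa using hz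
    rw [this, mul_zero]
  · have h1 : (volume {ζ | κ.FS u g (Pd u {z | g z ≠ 0} 4 n ν) n ζ ≠ 0}).toReal ≤
        C2 * 2 ^ (a * ν) * (volume {z | g z ≠ 0}).toReal := by
      have := ENNReal.toReal_mono (ENNReal.mul_lt_top ENNReal.ofReal_lt_top
        (vol_ne_lt_top hg)).ne (hS n ν g hg)
      rwa [ENNReal.toReal_mul, ENNReal.toReal_ofReal (by positivity)] at this
    set v := (volume {z | g z ≠ 0}).toReal with hv
    have hv0 : 0 ≤ v := ENNReal.toReal_nonneg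
    calc √((volume {ζ | κ.FS u g (Pd u {z | g z ≠ 0} 4 n ν) n ζ ≠ 0}).toReal) *
        √(∫ ζ, κ.FS u g (Pd u {z | g z ≠ 0} 4 n ν) n ζ ^ 2)
        ≤ √(C2 * 2 ^ (a * ν) * v) * √(C0 * (9 / 10) ^ ν * v) := by
          gcongr
          exact h0 n ν g hg hg1
      _ ≤ √(C2 * (2 ^ (a * ν)) ^ 2 * v) * √(C0 * 1 * v) := by
          gcongr
          · exact le_self_pow₀ (one_le_pow₀ (by norm_num)) (by norm_num)
          · exact pow_le_one₀ (by norm_num) (by norm_num)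
      _ = √C0 * √C2 * (2 ^ a) ^ ν * v := by
          rw [mul_one, Real.sqrt_mul' _ hv0, Real.sqrt_mul' _ hv0, Real.sqrt_mul hC2,
            Real.sqrt_sq (by positivity), pow_mul]
          have : √v * √v = v := Real.mul_self_sqrt hv0
          calc √C2 * (2 ^ a) ^ ν * √v * (√C0 * √v)
              = √C0 * √C2 * (2 ^ a) ^ ν * (√v * √v) := by ring
            _ = _ := by rw [this]

end

/-- [TOP]: the restricted bound with logarithmic gain. -/
theorem restr0_of {κ : Ker M} {e : ℝ} (hD : StFD1 4) (h0 : StR0ν κ) (hT : StTail κ)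
    (hS : StSup κ) (hG : StG κ e) : Restr0 e 2 κ := by
  have hρ0 : (0 : ℝ) < √(9 / 10) := by positivity
  have hρ1 : √(9 / 10 : ℝ) < 1 := by
    rw [Real.sqrt_lt' one_pos]; norm_num
  set ρ := √(9 / 10 : ℝ) with hρ
  have hσ0 : 0 < √ρ := Real.sqrt_pos.2 hρ0
  have hσ1 : √ρ < 1 := by
    rw [Real.sqrt_lt' one_pos]; simpa using hρ1
  set σ := √ρ with hσ
  have hσρ : ∀ ν : ℕ, σ ^ (2 * ν) = ρ ^ ν := fun ν => by
    rw [pow_mul, hσ, Real.sq_sqrt hρ0.le]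
  obtain ⟨C0, hC0, h0⟩ := h0
  obtain ⟨C2, a, hC2, hS⟩ := hS
  obtain ⟨b, B, hgp⟩ := gain_pos hσ0 hσ1
  obtain ⟨Cg, hCg, hG⟩ := hG b B
  obtain ⟨θ, r, hθ0, hr0, hr1, hgn⟩ := gain_neg hρ0 hρ1 (2 ^ a) (one_le_pow₀ (by norm_num))
  obtain ⟨Ce, hCe, hexp⟩ := exp_le_sq (θ / 2) (by positivity)
  set c0 := √C0 with hc0
  set c2 := √C0 * √C2 with hc2
  have hc0' : 0 ≤ c0 := Real.sqrt_nonneg _
  have hc2' : 0 ≤ c2 := by positivity
  have h1ρ : 0 < 1 - ρ := by linarith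
  have h1σ : 0 < 1 - σ := by linarith
  have h1r : 0 < 1 - r := by linarith
  set K1 := (c0 + c2) * Ce / (1 - r) with hK1
  set K2 := c0 * (1 + Cg) ^ 2 / (1 - ρ) with hK2
  set K3 := (c0 + Cg) * 4 / (1 - σ) with hK3
  have hK1' : 0 ≤ K1 := by positivity
  have hK2' : 0 ≤ K2 := by positivity
  have hK3' : 0 ≤ K3 := by positivity
  refine ⟨K1 + K2 + K3, by positivity, ?_⟩
  intro u hu hlip n f g hf hg hf1 hg1 hf2 hg2 hg3 hvF hvE
  set vF := volume.real (Function.support f) with hvFdef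
  set vE := volume.real (Function.support g) with hvEdef
  have evF : (volume {z | f z ≠ 0}).toReal = vF := rfl
  have evE : (volume {z | g z ≠ 0}).toReal = vE := rfl
  have hFpos : 0 < vF := ENNReal.toReal_pos hvF.ne' (vol_ne_lt_top hf).ne
  have hEpos : 0 < vE := ENNReal.toReal_pos hvE.ne' (vol_ne_lt_top hg).ne
  set A := √vF * √vE with hA
  have hA0 : 0 ≤ A := by positivity
  set Λ := Real.log (vE / vF) with hΛ
  have hpos : 0 < 1 + |Λ| := by positivity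
  suffices hmain : |∫ z, Tn κ u n f z * g z| * (1 + |Λ|) ^ 2 ≤ (K1 + K2 + K3) * A by
    rw [Real.rpow_neg hpos.le, Real.rpow_two, ← div_eq_mul_inv, le_div_iff₀ (by positivity)]
    exact hmain
  have hl1 : ∀ ν, |∫ ζ, f ζ * κ.FS u g (Pd u {z | g z ≠ 0} 4 n ν) n ζ| ≤ c0 * ρ ^ ν * A := fun ν =>
    level_le hD (h0 u hu) hu hf hg hf1 hg1 ν
  have hl2 : ∀ ν, |∫ ζ, f ζ * κ.FS u g (Pd u {z | g z ≠ 0} 4 n ν) n ζ| ≤
      c2 * (2 ^ a) ^ ν * vE := fun ν =>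
    level_sup_le hC0.le hC2.le hD (h0 u hu) (hS u hu) hu hf hg hf1 hg1 ν
  rcases lt_or_ge Λ 0 with hneg | hnn
  · -- large `f`
    have hx : 0 ≤ -Λ / 2 := by linarith
    have hvE' : vE = Real.exp (-(-Λ / 2)) * A := by
      have h1 : Real.exp Λ = vE / vF := Real.exp_log (by positivity)
      have h2 : Real.exp (Λ / 2) = √(vE / vF) := by
        rw [Real.exp_half, h1]
      rw [show -(-Λ / 2) = Λ / 2 by ring, h2, Real.sqrt_div hEpos.le, hA]
      have : √vE * √vE = vE := Real.mul_self_sqrt hEpos.le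
      field_simp
      linarith [this, Real.sq_sqrt hEpos.le]
    have ht : ∀ ν, |∫ ζ, f ζ * κ.FS u g (Pd u {z | g z ≠ 0} 4 n ν) n ζ| ≤
        (c0 + c2) * Real.exp (-(θ * (-Λ / 2))) * A * r ^ ν := by
      intro ν
      have := hgn (c0 + c2) A (-Λ / 2) _ ν (by positivity) hA0 hx
        ((hl1 ν).trans (by gcongr; linarith)) ((hl2 ν).trans (by
          conv_lhs => rw [hvE', ← mul_assoc]
          gcongr; linarith))
      calc _ ≤ _ := this
        _ = _ := by ring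
    have h2 := total_le (n := n) hD hT hu hf hg hf1 hg1 (by positivity) hr0.le hr1 ht
    have h3 := hexp |Λ| (abs_nonneg _)
    rw [show θ / 2 * |Λ| = θ * (-Λ / 2) by rw [abs_of_neg hneg]; ring] at h3
    calc |∫ z, Tn κ u n f z * g z| * (1 + |Λ|) ^ 2
        ≤ (c0 + c2) * Real.exp (-(θ * (-Λ / 2))) * A / (1 - r) * (1 + |Λ|) ^ 2 := by gcongr
      _ = (c0 + c2) / (1 - r) * A * (Real.exp (-(θ * (-Λ / 2))) * (1 + |Λ|) ^ 2) := by ring
      _ ≤ (c0 + c2) / (1 - r) * A * Ce := by gcongr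
      _ = K1 * A := by rw [hK1]; ring
      _ ≤ (K1 + K2 + K3) * A := by gcongr; linarith
  rcases lt_or_ge Λ Cg with hsmall | hbig
  · have h2 := total_le (n := n) (K := c0 * A) hD hT hu hf hg hf1 hg1 (by positivity) hρ0.le hρ1
      fun ν => (hl1 ν).trans (le_of_eq (by ring))
    rw [abs_of_nonneg hnn]
    calc |∫ z, Tn κ u n f z * g z| * (1 + Λ) ^ 2
        ≤ c0 * A / (1 - ρ) * (1 + Cg) ^ 2 := by gcongr
      _ = K2 * A := by rw [hK2]; ring
      _ ≤ (K1 + K2 + K3) * A := by gcongr; linarith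
  · have hL1 : 1 ≤ Λ := hCg.trans hbig
    have hL2 : (0 : ℝ) < Λ ^ 2 := by positivity
    have ht : ∀ ν, |∫ ζ, f ζ * κ.FS u g (Pd u {z | g z ≠ 0} 4 n ν) n ζ| ≤
        (c0 + Cg) * A / Λ ^ 2 * σ ^ ν := by
      intro ν
      have := hgp c0 Cg A Λ |∫ ζ, f ζ * κ.FS u g (Pd u {z | g z ≠ 0} 4 n ν) n ζ| ν hc0'
        (by linarith) hA0 hL1
        (by rw [hσρ ν]; exact hl1 ν) fun hν => by
          have := hG u hu hlip n ν f g hf hg hf1 hg1 hf2 hg2 hg3 hvF hvE Λ rfl hbig hν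
          rw [mul_assoc] at this
          exact this
      rw [div_mul_eq_mul_div, le_div_iff₀ hL2]
      calc _ ≤ _ := this
        _ = _ := by ring
    have h2 := total_le (n := n) hD hT hu hf hg hf1 hg1 (by positivity) hσ0.le hσ1 ht
    rw [abs_of_nonneg hnn]
    calc |∫ z, Tn κ u n f z * g z| * (1 + Λ) ^ 2
        ≤ (c0 + Cg) * A / Λ ^ 2 / (1 - σ) * (2 * Λ) ^ 2 := by gcongr; linarith
      _ = K3 * A := by rw [hK3]; field_simp; ring
      _ ≤ (K1 + K2 + K3) * A := by gcongr; linarith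

end Vale.Agent.P112.TOP
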