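import Vale.Agent.P112.Top.Main

/-!
# P112, [TOP]: the support of one density level
-/

open MeasureTheory Set Filter Topology
open scoped ENNReal

set_option linter.dupNamespace false

namespace Vale.Agent.P112.TOP

open T F30 H694.BO

variable {M : ℕ}

/-- The area of a tube. -/
theorem volume_tube_le (x0 a s c R : ℝ) :
    volume {z : ℝ × ℝ | |z.1 - x0| ≤ a ∧ |z.2 - (c + s * (z.1 - x0))| ≤ R} ≤
      ENNReal.ofReal (2 * R) * ENNReal.ofReal (2 * a) := by
  set Q : Set (ℝ × ℝ) := {z : ℝ × ℝ | |z.1 - x0| ≤ a ∧ |z.2 - (c + s * (z.1 - x0))| ≤ R} with hQ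
  have hRm : MeasurableSet Q := by
    apply MeasurableSet.inter
    · have h : Measurable fun z : ℝ × ℝ => |z.1 - x0| := by fun_prop
      exact measurableSet_le h measurable_const
    · have h : Measurable fun z : ℝ × ℝ => |z.2 - (c + s * (z.1 - x0))| := by fun_prop
      exact measurableSet_le h measurable_const
  calc volume Q = ∫⁻ x, volume (Prod.mk x ⁻¹' Q) := by
        rw [Measure.volume_eq_prod, Measure.prod_apply hRm]
    _ ≤ ∫⁻ x, (Icc (x0 - a) (x0 + a)).indicator (fun _ => ENNReal.ofReal (2 * R)) x := by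
        apply lintegral_mono
        intro x
        show volume (Prod.mk x ⁻¹' Q) ≤ _
        by_cases hx : x ∈ Icc (x0 - a) (x0 + a)
        · rw [indicator_of_mem hx]
          have : Prod.mk x ⁻¹' Q ⊆ Icc (c + s * (x - x0) - R) (c + s * (x - x0) + R) := by
            intro y hy
            have h1 : |y - (c + s * (x - x0))| ≤ R := hy.2
            obtain ⟨h2, h3⟩ := abs_le.1 h1
            exact ⟨by linarith, by linarith⟩
          calc volume (Prod.mk x ⁻¹' Q)
              ≤ volume (Icc (c + s * (x - x0) - R) (c + s * (x - x0) + R)) := measure_mono this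
            _ = ENNReal.ofReal (2 * R) := by
                rw [Real.volume_Icc]
                congr 1
                ring
        · have : Prod.mk x ⁻¹' Q = ∅ := by
            ext y
            simp only [mem_preimage, mem_empty_iff_false, iff_false]
            intro h
            have h1 : |x - x0| ≤ a := h.1
            obtain ⟨h2, h3⟩ := abs_le.1 h1
            exact hx ⟨by linarith, by linarith⟩
          rw [this]
          simp
    _ = ENNReal.ofReal (2 * R) * volume (Icc (x0 - a) (x0 + a)) := by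
        rw [lintegral_indicator measurableSet_Icc]
        simp
    _ = ENNReal.ofReal (2 * R) * ENNReal.ofReal (2 * a) := by
        rw [Real.volume_Icc]
        congr 2
        ring

theorem cell_dist {τ x y : ℝ} {i : ℕ} (h : q τ i x = q τ i y) : |x - y| ≤ 1 / 2 ^ i := by
  have h2 : (0 : ℝ) < 2 ^ i := by positivity
  unfold q at h
  have h1 := Int.abs_sub_lt_one_of_floor_eq_floor h
  have h3 : |x - y| * 2 ^ i < 1 := by
    calc |x - y| * 2 ^ i = |2 ^ i * (x - τ) - 2 ^ i * (y - τ)| := by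
          rw [← abs_of_pos h2, ← abs_mul, abs_of_pos h2]
          congr 1
          ring
      _ < 1 := h1
  rw [le_div_iff₀ h2]
  exact h3.le

/-- [StSup]. -/
theorem stSup_of (hF : StFD2 4) (κ : Ker M) : StSup κ := by
  obtain ⟨C, hC, hF⟩ := hF
  refine ⟨4 * 2 * (2 * (5 * C)) * 4, 2, by positivity, ?_⟩
  intro u hu n ν g hg
  have h2 : (1 : ℝ) ≤ 2 ^ (ν + 1) := one_le_pow₀ (by norm_num)
  obtain ⟨ι, _, Tp, hsum, -, -, hlt, habove⟩ := hF u hu {z | g z ≠ 0} (meas_ne g hg) (bdd_ne hg) n ν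
    (2 ^ (ν + 1)) 1 le_rfl h2 (by
      calc (2 : ℝ) ^ (ν + 1) = (2 ^ (ν + 1)) ^ 1 := (pow_one _).symm
        _ ≤ (2 ^ (ν + 1)) ^ 4 := pow_le_pow_right₀ h2 (by norm_num))
  set S : ℝ := 2 ^ (ν + 1) with hS
  set R : ℝ := 5 * C * S with hR
  have hR0 : 0 ≤ R := by positivity
  have hsub : {ζ | κ.FS u g (Pd u {z | g z ≠ 0} 4 n ν) n ζ ≠ 0} ⊆
      ⋃ m, {ζ : ℝ × ℝ | |ζ.1 - Tp.x m| ≤ 2 * (1 / 2) ^ Tp.j m ∧
        |ζ.2 - (Tp.y m + Tp.s m * (ζ.1 - Tp.x m))| ≤ R} := by
    intro ζ hζ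
    have hex : ∃ j ∈ Finset.range n,
        κ.S u j ((Pd u {z | g z ≠ 0} 4 n ν j).indicator g) ζ ≠ 0 := by
      by_contra hc
      push Not at hc
      exact hζ (Finset.sum_eq_zero hc)
    obtain ⟨j, hj, hS0⟩ := hex
    have hz : ∃ z, κ.k j (u z) z ζ * (Pd u {z | g z ≠ 0} 4 n ν j).indicator g z ≠ 0 := by
      by_contra hc
      push Not at hc
      exact hS0 (by unfold Ker.S; simp [hc])
    obtain ⟨z, hz⟩ := hz
    have hk := κ.k_supp (left_ne_zero_of_mul hz)
    have hzP : z ∈ Pd u {z | g z ≠ 0} 4 n ν j := by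
      by_contra hc
      exact (right_ne_zero_of_mul hz) (indicator_of_notMem hc g)
    obtain ⟨m, hm, hcell, hsl, hoff⟩ := habove j z hzP
    refine mem_iUnion.2 ⟨m, ?_, ?_⟩
    · have h3 := cell_dist hcell
      have h4 : (1 : ℝ) / 2 ^ j ≤ 1 / 2 ^ Tp.j m :=
        one_div_le_one_div_of_le (by positivity) (pow_le_pow_right₀ (by norm_num) hm)
      have h5 : (1 : ℝ) / (8 * 2 ^ j) ≤ 1 / 2 ^ j :=
        one_div_le_one_div_of_le (by positivity) (by
          have : (0 : ℝ) < 2 ^ j := by positivity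
          linarith)
      have h6 : ((1 : ℝ) / 2) ^ Tp.j m = 1 / 2 ^ Tp.j m := by rw [div_pow, one_pow]
      have h7 := hk.1
      obtain ⟨a1, a2⟩ := abs_le.1 h3
      obtain ⟨b1, b2⟩ := abs_le.1 h7
      rw [h6, abs_le]
      constructor <;> linarith
    · have h3 : |(z.1 - ζ.1) * (u z - Tp.s m)| ≤ C * S := by
        rw [abs_mul]
        calc |z.1 - ζ.1| * |u z - Tp.s m| ≤ 1 / (8 * 2 ^ j) * (C * S * 2 ^ j) := by
              gcongr
              exact hk.1
          _ = C * S / 8 := by field_simp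
          _ ≤ C * S := by
              have : 0 ≤ C * S := by positivity
              linarith
      have h4 := hk.2
      have h5 : |z.2 - (Tp.y m + Tp.s m * (z.1 - Tp.x m))| ≤ C * (S + 1) := hoff
      have h6 : C * (S + 1) ≤ 2 * (C * S) := by nlinarith
      have h7 : 1 ≤ C * S := by nlinarith
      obtain ⟨a1, a2⟩ := abs_le.1 h3
      obtain ⟨b1, b2⟩ := abs_le.1 h4
      obtain ⟨c1, c2⟩ := abs_le.1 h5
      have e : ζ.2 - (Tp.y m + Tp.s m * (ζ.1 - Tp.x m)) =
          -(z.2 - ζ.2 - (z.1 - ζ.1) * u z) + (z.2 - (Tp.y m + Tp.s m * (z.1 - Tp.x m))) -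
            (z.1 - ζ.1) * (u z - Tp.s m) := by ring
      rw [e, hR, abs_le]
      constructor <;> nlinarith
  calc volume {ζ | κ.FS u g (Pd u {z | g z ≠ 0} 4 n ν) n ζ ≠ 0}
      ≤ volume (⋃ m, {ζ : ℝ × ℝ | |ζ.1 - Tp.x m| ≤ 2 * (1 / 2) ^ Tp.j m ∧
        |ζ.2 - (Tp.y m + Tp.s m * (ζ.1 - Tp.x m))| ≤ R}) := measure_mono hsub
    _ ≤ ∑ m, volume {ζ : ℝ × ℝ | |ζ.1 - Tp.x m| ≤ 2 * (1 / 2) ^ Tp.j m ∧
        |ζ.2 - (Tp.y m + Tp.s m * (ζ.1 - Tp.x m))| ≤ R} := measure_iUnion_fintype_le _ _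
    _ ≤ ∑ m, ENNReal.ofReal (2 * R) * ENNReal.ofReal (2 * (2 * (1 / 2) ^ Tp.j m)) :=
        Finset.sum_le_sum fun m _ => volume_tube_le _ _ _ _ _
    _ = ENNReal.ofReal (2 * R * 4) * ENNReal.ofReal (∑ m, (1 / 2) ^ Tp.j m) := by
        rw [ENNReal.ofReal_sum_of_nonneg fun m _ => by positivity, Finset.mul_sum]
        refine Finset.sum_congr rfl fun m _ => ?_
        rw [← ENNReal.ofReal_mul (by positivity), ← ENNReal.ofReal_mul (by positivity)]
        congr 1
        ring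
    _ ≤ ENNReal.ofReal (2 * R * 4) * (ENNReal.ofReal (2 ^ (ν + 1)) * volume {z | g z ≠ 0}) := by
        gcongr
    _ = ENNReal.ofReal (2 * R * 4 * 2 ^ (ν + 1)) * volume {z | g z ≠ 0} := by
        rw [← mul_assoc, ← ENNReal.ofReal_mul (by positivity)]
    _ ≤ ENNReal.ofReal (4 * 2 * (2 * (5 * C)) * 4 * 2 ^ (2 * ν)) * volume {z | g z ≠ 0} := by
        refine mul_le_mul_of_nonneg_right (ENNReal.ofReal_le_ofReal ?_) zero_le
        rw [hR, hS]
        have e1 : (2 : ℝ) ^ (ν + 1) = 2 * 2 ^ ν := by ring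
        have e2 : (2 : ℝ) ^ (2 * ν) = 2 ^ ν * 2 ^ ν := by rw [two_mul, pow_add]
        rw [e1, e2]
        have : (0 : ℝ) ≤ C * (2 ^ ν * 2 ^ ν) := by positivity
        nlinarith

end Vale.Agent.P112.TOP
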